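import Vale.Agent.P281.H303.K.Smooth

/-!
# P281, T-K, block J (helper303): the volume form of the real periods
-/

open Set Filter Metric MeasureTheory
open scoped Topology ContDiff ComplexConjugate ENNReal

set_option linter.unusedSectionVars false
set_option linter.deprecated false
set_option linter.unusedVariables false

noncomputable section

namespace Vale.Agent.P281.H303.K

open Vale.Agent.P281.H64 (Cm)
open Vale.Agent.P281.H64.TK

variable {d : ℕ}

/-- The real coordinates of `ℂ^d`. -/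
def rcoord (d : ℕ) : Cm d ≃ₗ[ℝ] (Fin d ⊕ Fin d → ℝ) where
  toFun x := Sum.elim (fun k => (x k).re) (fun k => (x k).im)
  map_add' x y := by ext (k | k) <;> simp
  map_smul' c x := by ext (k | k) <;> simp
  invFun f := fun k => ⟨f (Sum.inl k), f (Sum.inr k)⟩
  left_inv x := by
    ext k
    apply Complex.ext <;> rfl
  right_inv f := by ext (k | k) <;> rfl

/-- The real basis `∂/∂x_k`, `∂/∂y_k`. -/
def rb (d : ℕ) : Module.Basis (Fin d ⊕ Fin d) ℝ (Cm d) := Module.Basis.ofEquivFun (rcoord d)

theorem rb_apply (b : Fin d ⊕ Fin d) : rb d b = rv b := by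
  apply (rcoord d).injective
  rw [rb, Module.Basis.coe_ofEquivFun, LinearEquiv.apply_symm_apply]
  ext c
  rcases b with k | k <;> rcases c with l | l
  · show (Pi.single (Sum.inl k) 1 : Fin d ⊕ Fin d → ℝ) (Sum.inl l) =
      ((Pi.single k 1 : Fin d → ℂ) l).re
    by_cases h : l = k
    · subst h; simp
    · rw [Pi.single_eq_of_ne h, Pi.single_eq_of_ne (fun h' => h (Sum.inl.inj h'))]; rfl
  · show (Pi.single (Sum.inl k) 1 : Fin d ⊕ Fin d → ℝ) (Sum.inr l) =
      ((Pi.single k 1 : Fin d → ℂ) l).im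
    rw [Pi.single_eq_of_ne (by simp)]
    by_cases h : l = k
    · subst h; simp
    · rw [Pi.single_eq_of_ne h]; rfl
  · show (Pi.single (Sum.inr k) 1 : Fin d ⊕ Fin d → ℝ) (Sum.inl l) =
      ((Pi.single k Complex.I : Fin d → ℂ) l).re
    rw [Pi.single_eq_of_ne (by simp)]
    by_cases h : l = k
    · subst h; simp
    · rw [Pi.single_eq_of_ne h]; rfl
  · show (Pi.single (Sum.inr k) 1 : Fin d ⊕ Fin d → ℝ) (Sum.inr l) =
      ((Pi.single k Complex.I : Fin d → ℂ) l).im
    by_cases h : l = k
    · subst h; simp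
    · rw [Pi.single_eq_of_ne h, Pi.single_eq_of_ne (fun h' => h (Sum.inr.inj h'))]; rfl

/-- The determinant of `L ∘ T` in terms of that of `L`. -/
theorem detM_comp (L : Cm d →ₗ[ℝ] (Fin d ⊕ Fin d → ℝ)) (T : Cm d →ₗ[ℝ] Cm d) :
    detM _ (fun b => L (T (rv b))) = LinearMap.det T * detM _ (fun b => L (rv b)) := by
  have h1 : ∀ b, L (T (rv b)) = ∑ c, LinearMap.toMatrix (rb d) (rb d) T c b • L (rv c) := by
    intro b
    have h2 : T (rb d b) = ∑ c, LinearMap.toMatrix (rb d) (rb d) T c b • rb d c := by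
      conv_lhs => rw [← (rb d).sum_repr (T (rb d b))]
      exact Finset.sum_congr rfl fun c _ => by rw [LinearMap.toMatrix_apply]
    rw [← rb_apply, h2, map_sum]
    exact Finset.sum_congr rfl fun c _ => by rw [map_smul, rb_apply]
  rw [detM_apply, detM_apply, ← LinearMap.det_toMatrix (rb d), ← Matrix.det_transpose
    (LinearMap.toMatrix (rb d) (rb d) T), ← Matrix.det_mul]
  congr 1
  ext b a
  rw [Matrix.mul_apply]
  show L (T (rv b)) a = _
  rw [h1 b, Finset.sum_apply]
  rfl

/-- Transformation of Jacobian determinants. -/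
theorem jd'_comp {A : Cm d → Fin d ⊕ Fin d → ℝ} {ψ : Cm d → Cm d} {z w : Cm d} (hz : ψ z = w)
    (hA : DifferentiableAt ℝ A w) (hψ : DifferentiableAt ℝ ψ z) :
    jd' rv (fun x => A (ψ x)) z = (fderiv ℝ ψ z).det * jd' rv A w := by
  subst hz
  have h1 : fderiv ℝ (fun x => A (ψ x)) z = (fderiv ℝ A (ψ z)).comp (fderiv ℝ ψ z) :=
    (hA.hasFDerivAt.comp z hψ.hasFDerivAt).fderiv
  have h2 := detM_comp (fderiv ℝ A (ψ z)).toLinearMap (fderiv ℝ ψ z).toLinearMap
  unfold jd' cl
  rw [h1]
  exact h2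

variable {E Γ : Type} [TopologicalSpace E] [Group Γ] [MulAction Γ E]

theorem jacR_eq {S : Sheets d E Γ} {u : Fin d ⊕ Fin d → E → ℝ} (hu : ∀ k, Smo S (u k))
    {i : Fin S.N} {z : Cm d} (hz : z ∈ ball (0 : Cm d) 3) :
    S.jacR u i z = jd' rv (fun z k => u k (S.σ i z)) z := by
  unfold Sheets.jacR jd'
  rw [detM_apply, ← Matrix.det_transpose]
  congr 1
  ext b a
  show fderiv ℝ (fun z => u a (S.σ i z)) z (rv b) = _
  have h1 : DifferentiableAt ℝ (fun z k => u k (S.σ i z)) z :=
    differentiableAt_pi.2 fun k => (hu k).diffAt hz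
  exact fderiv_apply_coord h1 a (rv b)

theorem jacR_update (S : Sheets d E Γ) (u : Fin d ⊕ Fin d → E → ℝ) (k : Fin d ⊕ Fin d)
    (x : E → ℝ) (i : Fin S.N) (z : Cm d) :
    S.jacR (Function.update u k x) i z =
      ((Matrix.of fun a b => fderiv ℝ (fun z => u a (S.σ i z)) z (rv b)).updateRow k
        (fun b => fderiv ℝ (fun z => x (S.σ i z)) z (rv b))).det := by
  unfold Sheets.jacR
  congr 1
  ext a b
  by_cases h : a = k
  · subst h
    simp [Matrix.updateRow_self]
  · simp [Matrix.updateRow_ne h, Function.update_of_ne h]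

theorem update_smo {S : Sheets d E Γ} {u : Fin d ⊕ Fin d → E → ℝ} (hu : ∀ k, Smo S (u k))
    {x : E → ℝ} (hx : Smo S x) (k l : Fin d ⊕ Fin d) : Smo S (Function.update u k x l) := by
  by_cases h : l = k
  · subst h
    rwa [Function.update_self]
  · rw [Function.update_of_ne h]
    exact hu l

theorem continuousOn_jacR {S : Sheets d E Γ} {u : Fin d ⊕ Fin d → E → ℝ}
    (hu : ∀ k, Smo S (u k)) (i : Fin S.N) : ContinuousOn (S.jacR u i) (ball 0 3) := by
  have h1 : ContinuousOn (jd' rv (fun z k => u k (S.σ i z))) (ball (0 : Cm d) 3) := fun z hz =>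
    (contDiffAt_jd' (contDiffAt_pi.2 fun k => (hu k).selfAt hz)).continuousAt.continuousWithinAt
  exact h1.congr fun z hz => jacR_eq hu hz

variable [ContinuousConstSMul Γ E]

theorem integrableOn_P (S : Sheets d E Γ) (i : Fin S.N) {F : Type} [NormedAddCommGroup F]
    {g : Cm d → F} (hg : ContinuousOn g (ball 0 3)) : IntegrableOn g (S.P i) :=
  ((hg.mono cball13).integrableOn_compact (isCompact_closedBall _ _)).mono_set
    ((P_subset S i).trans ball_subset_closedBall)

theorem integrable_jacR {S : Sheets d E Γ} {u : Fin d ⊕ Fin d → E → ℝ}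
    (hu : ∀ k, Smo S (u k)) (i : Fin S.N) : IntegrableOn (S.jacR u i) (S.P i) :=
  integrableOn_P S i (continuousOn_jacR hu i)

/-- transformation rule of `du_1 ∧ ⋯ ∧ du_2d` -/
theorem jac_change {S : Sheets d E Γ} {u : Fin d ⊕ Fin d → E → ℝ} {a : Fin d ⊕ Fin d → Γ → ℝ}
    (hu : ∀ k, SAdd S (u k) (a k)) {q : Cm d → E} {z : Cm d} {j : Fin S.N} {w : Cm d}
    (hw : w ∈ ball (0 : Cm d) 3) {γ : Γ} {ψ : Cm d → Cm d} (hψ : DifferentiableAt ℝ ψ z)
    (he : ψ z = w) (h3 : ∀ᶠ x in 𝓝 z, q x = γ • S.σ j (ψ x)) :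
    (Matrix.of fun a b => fderiv ℝ (fun z => u a (q z)) z (rv b)).det =
      (fderiv ℝ ψ z).det * S.jacR u j w := by
  have hs : ∀ k, Smo S (u k) := fun k => SAdd.smo (hu k)
  have hd : DifferentiableAt ℝ (fun z k => u k (S.σ j z)) w :=
    differentiableAt_pi.2 fun k => (hs k).diffAt hw
  rw [jacR_eq hs hw, ← jd'_comp he hd hψ, jd', detM_apply, ← Matrix.det_transpose]
  congr 1
  ext b c
  show fderiv ℝ (fun z => u c (q z)) z (rv b) = _
  have h4 : (fun z => u c (q z)) =ᶠ[𝓝 z] fun x => u c (S.σ j (ψ x)) + a c γ :=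
    h3.mono fun x hx => by simp only [hx, (hu c).add]
  rw [h4.fderiv_eq, fderiv_add_const]
  have hd' : DifferentiableAt ℝ (fun x k => u k (S.σ j (ψ x))) z := by
    rw [← he] at hd
    exact DifferentiableAt.comp z hd hψ
  exact fderiv_apply_coord hd' c (rv b)

/-- `∫ du_1 ∧ ⋯ ∧ du_2d` -/
def I (S : Sheets d E Γ) (u : Fin d ⊕ Fin d → E → ℝ) : ℝ := ∑ i, ∫ z in S.P i, S.jacR u i z

theorem I_compat {S S' : Sheets d E Γ} (h : Compat S S') {u : Fin d ⊕ Fin d → E → ℝ}
    {a : Fin d ⊕ Fin d → Γ → ℝ} (hu : ∀ k, SAdd S' (u k) (a k)) : I S u = I S' u := by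
  refine int_compat h (fun i => integrable_jacR (fun k => (SAdd.smo (hu k)).compat h) i)
    (fun i => integrable_jacR (fun k => SAdd.smo (hu k)) i) ?_
  intro i j z hz w hw γ ψ he hψ hψz hdet hev
  exact jac_change hu hw hψ hψz hev

theorem I_add (S : Sheets d E Γ) {u : Fin d ⊕ Fin d → E → ℝ} (hu : ∀ k, Smo S (u k))
    (k : Fin d ⊕ Fin d) {x y : E → ℝ} (hx : Smo S x) (hy : Smo S y) :
    I S (Function.update u k (fun e => x e + y e)) =
      I S (Function.update u k x) + I S (Function.update u k y) := by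
  unfold I
  rw [← Finset.sum_add_distrib]
  refine Finset.sum_congr rfl fun i _ => ?_
  rw [← integral_add (integrable_jacR (fun l => update_smo hu hx k l) i)
    (integrable_jacR (fun l => update_smo hu hy k l) i)]
  refine setIntegral_congr_fun (meas_P S i) fun z hz => ?_
  have hz3 := P_subset3 S i hz
  simp only [jacR_update]
  rw [← Matrix.det_updateRow_add]
  congr 2
  ext b
  rw [fderiv_fun_add (hx.diffAt hz3) (hy.diffAt hz3)]
  rfl

theorem I_smul (S : Sheets d E Γ) {u : Fin d ⊕ Fin d → E → ℝ} (hu : ∀ k, Smo S (u k))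
    (k : Fin d ⊕ Fin d) (c : ℝ) {x : E → ℝ} (hx : Smo S x) :
    I S (Function.update u k (fun e => c * x e)) = c * I S (Function.update u k x) := by
  unfold I
  rw [Finset.mul_sum]
  refine Finset.sum_congr rfl fun i _ => ?_
  rw [← integral_const_mul]
  refine setIntegral_congr_fun (meas_P S i) fun z hz => ?_
  have hz3 := P_subset3 S i hz
  simp only [jacR_update]
  rw [← Matrix.det_updateRow_smul]
  congr 2
  ext b
  rw [fderiv_const_mul (hx.diffAt hz3)]
  rfl

/-- The smooth additive functions. -/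
def SA (S : Sheets d E Γ) : Submodule ℝ (E → ℝ) where
  carrier := {u | ∃ a : Γ → ℝ, SAdd S u a}
  add_mem' := by
    rintro u v ⟨a, ha⟩ ⟨b, hb⟩
    refine ⟨fun γ => a γ + b γ, sadd_of ((SAdd.smo ha).add (SAdd.smo hb)) fun γ e => ?_⟩
    simp only [Pi.add_apply, ha.add, hb.add]
    ring
  zero_mem' := ⟨fun _ => 0, sadd_of (Smo.const 0) fun γ e => by simp⟩
  smul_mem' := by
    rintro c u ⟨a, ha⟩
    refine ⟨fun γ => c * a γ, sadd_of ((Smo.const c).mul (SAdd.smo ha)) fun γ e => ?_⟩
    simp only [Pi.smul_apply, smul_eq_mul, ha.add]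
    ring

theorem SA_smo {S : Sheets d E Γ} (u : SA S) : Smo S (u : E → ℝ) := by
  obtain ⟨a, ha⟩ := u.2
  exact SAdd.smo ha

theorem coe_update {S : Sheets d E Γ} (m : Fin d ⊕ Fin d → SA S) (k : Fin d ⊕ Fin d)
    (x : SA S) [DecidableEq (Fin d ⊕ Fin d)] :
    (fun l => ((Function.update m k x l : SA S) : E → ℝ)) =
      Function.update (fun l => (m l : E → ℝ)) k (x : E → ℝ) := by
  funext l
  by_cases h : l = k
  · subst h
    simp
  · simp [Function.update_of_ne h]

/-- The integral as a multilinear map. -/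
def IM (S : Sheets d E Γ) : MultilinearMap ℝ (fun _ : Fin d ⊕ Fin d => SA S) ℝ where
  toFun m := I S fun k => (m k : E → ℝ)
  map_update_add' := by
    intro inst m k x y
    have e : inst = instDecidableEqSum := Subsingleton.elim _ _
    subst e
    rw [coe_update, coe_update, coe_update]
    exact I_add S (fun l => SA_smo (m l)) k (SA_smo x) (SA_smo y)
  map_update_smul' := by
    intro inst m k c x
    have e : inst = instDecidableEqSum := Subsingleton.elim _ _
    subst e
    rw [coe_update, coe_update]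
    exact I_smul S (fun l => SA_smo (m l)) k c (SA_smo x)

theorem IM_apply (S : Sheets d E Γ) (m : Fin d ⊕ Fin d → SA S) :
    IM S m = I S fun k => (m k : E → ℝ) := rfl

/-- One function has its support in a sheet. -/
theorem I_sheet (S : Sheets d E Γ) {u : Fin d ⊕ Fin d → E → ℝ} {a : Fin d ⊕ Fin d → Γ → ℝ}
    (hu : ∀ k, SAdd S (u k) (a k)) (k : Fin d ⊕ Fin d) (i : Fin S.N)
    (h0 : ∀ e, e ∉ V S i (closedBall 0 2) → u k e = 0) : I S u = 0 := by
  have hs : ∀ k, Smo S (u k) := fun k => SAdd.smo (hu k)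
  -- the Jacobian vanishes off the support
  have hz0 : ∀ (j : Fin S.N) (z : Cm d), z ∈ ball (0 : Cm d) 3 →
      S.σ j z ∉ V S i (closedBall 0 2) → S.jacR u j z = 0 := by
    intro j z hz hV
    have h6 : ContinuousAt (S.σ j) z := (S.map_nhds j z hz).le
    have h5 : (fun z => u k (S.σ j z)) =ᶠ[𝓝 z] fun _ => 0 := by
      filter_upwards [h6.eventually
        ((isClosed_V (S := S) (i := i) (by norm_num : (2 : ℝ) < 3)).isOpen_compl.mem_nhds hV)]
        with u hu
      exact h0 _ hu
    unfold Sheets.jacR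
    refine Matrix.det_eq_zero_of_row_eq_zero k fun b => ?_
    show fderiv ℝ (fun z => u k (S.σ j z)) z (rv b) = 0
    rw [h5.fderiv_eq]
    simp
  have hV2 : ∀ z ∈ ball (0 : Cm d) 3, z ∉ closedBall (0 : Cm d) 2 →
      S.σ i z ∉ V S i (closedBall 0 2) := by
    intro z hz hz2 h
    rw [co_mem (closedBall_subset_ball (by norm_num))] at h
    have h3 : co S i (S.σ i z) = z := co_eq (γ := 1) hz (one_smul _ _)
    rw [h3] at h
    exact hz2 h.2
  have h2 : I S u = ∫ z in ball (0 : Cm d) 3, S.jacR u i z := by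
    have h3 := int_family (S := S) (M := 1) (q := fun _ => S.σ i) (A := fun _ => ball 0 3)
      (fun _ => nice_self S i) (fun k l hkl => absurd (Subsingleton.elim k l) hkl)
      (D := S.jacR u) (g := fun _ => S.jacR u i)
      (fun j => integrable_jacR hs j) (fun _ => ?_) ?_ ?_
    · unfold I
      rw [← h3]
      simp
    · have a1 : IntegrableOn (S.jacR u i) (closedBall 0 2) :=
        ((continuousOn_jacR hs i).mono
          (closedBall_subset_ball (by norm_num))).integrableOn_compact (isCompact_closedBall _ _)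
      refine a1.of_forall_diff_eq_zero isOpen_ball.measurableSet ?_
      rintro z ⟨hz, hz'⟩
      exact hz0 i z hz (hV2 z hz hz')
    · rintro _ j z ⟨hz, γ, w, hw, he⟩
      have hw3 := P_subset3 S j hw
      have h1 := (nice_self S i).eventually hz j hw3 he.symm
      unfold jd
      rw [abs_of_nonneg h1.2.1, co_eq hw3 he, smul_eq_mul]
      exact jac_change hu hw3 h1.1 (co_eq hw3 he) (h1.2.2.mono fun u hu => hu.2)
    · intro j z hz hne
      by_contra hcon
      push Not at hcon
      apply hne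
      refine hz0 j z (P_subset3 S j hz) ?_
      rintro ⟨γ, w, hw, he⟩
      exact hcon 0 γ w (closedBall_subset_ball (by norm_num) hw) he
  rw [h2, setIntegral_congr_fun isOpen_ball.measurableSet (fun z hz => jacR_eq hs hz)]
  refine stokes_open isOpen_ball (isCompact_closedBall (0 : Cm d) 2)
    (closedBall_subset_ball (by norm_num)) ?_ k ?_
  · exact contDiffOn_pi.2 fun k => (hs k).self i
  · intro z hz hz2
    exact h0 _ (hV2 z hz hz2)

/-- **Stokes' theorem on `E / Γ`.** -/
theorem I_periodic (S : Sheets d E Γ) {u : Fin d ⊕ Fin d → E → ℝ} {a : Fin d ⊕ Fin d → Γ → ℝ}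
    (hu : ∀ k, SAdd S (u k) (a k)) (k : Fin d ⊕ Fin d) (h0 : ∀ γ, a k γ = 0) : I S u = 0 := by
  have hper : ∀ (γ : Γ) e, u k (γ • e) = u k e := fun γ e => by rw [(hu k).add, h0, add_zero]
  have hc : ∀ i, SAdd S (fun e => chi S i e * u k e) (fun _ => 0) := fun i =>
    sadd_of ((chi_smooth S i).mul (SAdd.smo (hu k))) fun γ e => by
      rw [chi_smul, hper, add_zero]
  set m : Fin d ⊕ Fin d → SA S := fun l => ⟨u l, a l, hu l⟩ with hm
  set x : Fin S.N → SA S := fun i => ⟨fun e => chi S i e * u k e, _, hc i⟩ with hx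
  have h1 : m = Function.update m k (∑ i, x i) := by
    rw [eq_comm, Function.update_eq_self_iff]
    apply Subtype.ext
    funext e
    rw [AddSubmonoidClass.coe_finset_sum, Finset.sum_apply]
    show ∑ i, chi S i e * u k e = u k e
    rw [← Finset.sum_mul, chi_sum, one_mul]
  have h2 : I S u = IM S m := rfl
  rw [h2, h1, MultilinearMap.map_update_sum]
  refine Finset.sum_eq_zero fun i _ => ?_
  rw [IM_apply, coe_update]
  refine I_sheet S (a := Function.update a k fun _ => 0) (fun l => ?_) k i fun e he => ?_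
  · by_cases h : l = k
    · subst h
      simp only [Function.update_self]
      exact hc i
    · simp only [Function.update_of_ne h]
      exact hu l
  · simp only [Function.update_self]
    show chi S i e * u k e = 0
    rw [chi_zero S i he, zero_mul]

/-- The integral only depends on the periods. -/
theorem I_congr (S : Sheets d E Γ) {u v : Fin d ⊕ Fin d → E → ℝ} {a : Fin d ⊕ Fin d → Γ → ℝ}
    (hu : ∀ k, SAdd S (u k) (a k)) (hv : ∀ k, SAdd S (v k) (a k)) : I S u = I S v := by
  set m : Fin d ⊕ Fin d → SA S := fun l => ⟨u l, a l, hu l⟩ with hm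
  set m' : Fin d ⊕ Fin d → SA S := fun l => ⟨v l, a l, hv l⟩ with hm'
  have hdiff : ∀ k, SAdd S (((m k - m' k : SA S) : E → ℝ)) (fun _ => 0) := by
    intro k
    refine sadd_of ((SAdd.smo (hu k)).sub (SAdd.smo (hv k))) fun γ e => ?_
    show u k (γ • e) - v k (γ • e) = u k e - v k e + 0
    rw [(hu k).add, (hv k).add]
    ring
  have h1 : IM S m = IM S ((fun k => m k - m' k) + m') := by
    congr 1
    funext k
    simp
  have h2 : I S u = IM S m := rfl
  have h3 : I S v = IM S m' := rfl
  rw [h2, h3, h1, MultilinearMap.map_add_univ]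
  rw [Finset.sum_eq_single (∅ : Finset (Fin d ⊕ Fin d))]
  · rw [Finset.piecewise_empty]
  · intro s _ hs
    obtain ⟨k, hk⟩ := Finset.nonempty_iff_ne_empty.2 hs
    rw [IM_apply]
    refine I_periodic S (a := fun l => if l ∈ s then fun _ => 0 else a l) (fun l => ?_) k
      fun γ => by simp [hk]
    by_cases h : l ∈ s
    · rw [Finset.piecewise_eq_of_mem _ _ _ h, if_pos h]
      exact hdiff l
    · rw [Finset.piecewise_eq_of_notMem _ _ _ h, if_neg h]
      exact hv l
  · intro h
    exact absurd (Finset.mem_univ _) h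

/-- **Block J.** -/
theorem j : JStmt := by
  intro d E Γ _ _ _ _ _ _ S n M _
  let φ : Fin n → SA S := fun k => ⟨uu S (fun γ => ((M.φ k γ : ℤ) : ℝ)), _,
    uu_sadd S fun x y => by rw [M.hom]; push_cast; rfl⟩
  refine ⟨fun K => IM S fun k => φ (K k), fun τ K => ?_, ?_⟩
  · show I S (fun k => (φ (K (τ k)) : E → ℝ)) = _ * I S (fun k => (φ (K k) : E → ℝ))
    unfold I
    rw [Finset.mul_sum]
    refine Finset.sum_congr rfl fun i _ => ?_
    rw [← integral_const_mul]
    refine integral_congr_ae (Eventually.of_forall fun z => ?_)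
    unfold Sheets.jacR
    exact Matrix.det_permute τ
      (Matrix.of fun a b => fderiv ℝ (fun z => (φ (K a) : E → ℝ) (S.σ i z)) z (rv b))
  · intro S' hS u a hu
    have hu' : ∀ k, SAdd S (u k) (a k) := fun k => SAdd.compat (compat_symm hS) (hu k)
    have h1 : I S' u = I S u := (I_compat (compat_symm hS) hu).symm
    have h2 : ∀ k, SAdd S ((∑ l, a k (M.g l) • φ l : SA S) : E → ℝ) (a k) := by
      intro k
      refine sadd_of (SA_smo _) fun γ e => ?_
      rw [AddSubmonoidClass.coe_finset_sum, Finset.sum_apply, Finset.sum_apply]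
      have h3 := M.complete (a k) (fun x y => SAdd.hom (hu k) x y) γ
      rw [h3, ← Finset.sum_add_distrib]
      refine Finset.sum_congr rfl fun l _ => ?_
      have h4 : ((φ l : SA S) : E → ℝ) (γ • e) = ((φ l : SA S) : E → ℝ) e +
          ((M.φ l γ : ℤ) : ℝ) := uu_add S (φ := fun γ => ((M.φ l γ : ℤ) : ℝ))
        (fun x y => by rw [M.hom]; push_cast; rfl) γ e
      have h5 : ∀ e, ((a k (M.g l) • φ l : SA S) : E → ℝ) e =
          a k (M.g l) * ((φ l : SA S) : E → ℝ) e := fun e => rfl
      rw [h5, h5, h4]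
      ring
    have h3 : I S u = IM S (fun k => ∑ l, a k (M.g l) • φ l) := I_congr S hu' h2
    show I S' u = _
    rw [h1, h3, MultilinearMap.map_sum]
    refine Finset.sum_congr rfl fun K _ => ?_
    rw [MultilinearMap.map_smul_univ, smul_eq_mul, mul_comm]

end Vale.Agent.P281.H303.K
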