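import Vale.Agent.P281.H303.K.Basic

/-!
# P281, T-K, block J (helper303): change of variables between sheets (after helper864's case d = 1)
-/

open Set Filter Metric MeasureTheory
open scoped Topology ContDiff ComplexConjugate ENNReal

set_option linter.unusedSectionVars false
set_option linter.deprecated false
set_option linter.unusedVariables false

noncomputable section

namespace Vale.Agent.P281.H303.K

open Vale.Agent.P281.H64 (Cm)
open Vale.Agent.P281.H64.TK

variable {d : ℕ} {E Γ : Type} [TopologicalSpace E] [Group Γ] [MulAction Γ E]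
  [ContinuousConstSMul Γ E] {F : Type} [NormedAddCommGroup F] [NormedSpace ℝ F]

/-- the part of `P i` which is covered by `q(A)` -/
def im (S : Sheets d E Γ) (q : Cm d → E) (A : Set (Cm d)) (i : Fin S.N) : Set (Cm d) :=
  {z | z ∈ S.P i ∧ ∃ γ : Γ, ∃ v ∈ A, γ • q v = S.σ i z}

theorem Nice.lint {S : Sheets d E Γ} {q : Cm d → E} {A : Set (Cm d)} (h : Nice S q A)
    (D : Fin S.N → Cm d → ℝ≥0∞) (G : Cm d → ℝ≥0∞)
    (hG : ∀ i, ∀ v ∈ piece S q A i,
      G v = ENNReal.ofReal |(jd S q i v).det| * D i (co S i (q v))) :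
    ∫⁻ v in A, G v ≤ ∑ i, ∫⁻ z in S.P i, D i z := by
  have h1 : ∫⁻ v in A, G v = ∑ i, ∫⁻ v in piece S q A i, G v := by
    conv_lhs => rw [← piece_union S q A]
    rw [lintegral_iUnion (fun i => h.meas_piece i) (piece_disj S q A), tsum_fintype]
  rw [h1]
  refine Finset.sum_le_sum fun i _ => ?_
  have h2 : ∫⁻ v in piece S q A i, G v =
      ∫⁻ z in (fun u => co S i (q u)) '' (piece S q A i), D i z := by
    rw [lintegral_image_eq_lintegral_abs_det_fderiv_mul volume (h.meas_piece i)
      (fun v hv => (h.hasFDerivAt hv).hasFDerivWithinAt) (h.injOn i)]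
    exact setLIntegral_congr_fun (h.meas_piece i) (fun v hv => hG i v hv)
  rw [h2]
  refine lintegral_mono_set ?_
  rw [h.image i]
  exact fun z hz => hz.1

theorem Nice.int {S : Sheets d E Γ} {q : Cm d → E} {A : Set (Cm d)} (h : Nice S q A)
    (D : Fin S.N → Cm d → F) (g : Cm d → F) (hi : IntegrableOn g A)
    (hg : ∀ i, ∀ v ∈ piece S q A i, g v = |(jd S q i v).det| • D i (co S i (q v))) :
    ∫ v in A, g v = ∑ i, ∫ z in im S q A i, D i z := by
  have h1 : ∫ v in A, g v = ∑ i, ∫ v in piece S q A i, g v := by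
    conv_lhs => rw [← piece_union S q A]
    rw [integral_iUnion_fintype (fun i => h.meas_piece i) (piece_disj S q A)
      (fun i => hi.mono_set (piece_subset S q A i))]
  rw [h1]
  refine Finset.sum_congr rfl fun i _ => ?_
  have h3 : im S q A i = (fun u => co S i (q u)) '' (piece S q A i) := (h.image i).symm
  rw [h3, integral_image_eq_integral_abs_det_fderiv_smul volume (h.meas_piece i)
      (fun v hv => (h.hasFDerivAt hv).hasFDerivWithinAt) (h.injOn i)]
  exact setIntegral_congr_fun (h.meas_piece i) (fun v hv => hg i v hv)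

/-- The integral over `E / Γ`, computed with a family of parametrizations of disjoint pieces. -/
theorem int_family {S : Sheets d E Γ} {M : ℕ} {q : Fin M → Cm d → E} {A : Fin M → Set (Cm d)}
    (h : ∀ k, Nice S (q k) (A k))
    (hdisj : ∀ k l, k ≠ l → ∀ v ∈ A k, ∀ w ∈ A l, ∀ γ : Γ, γ • q k v ≠ q l w)
    {D : Fin S.N → Cm d → F} {g : Fin M → Cm d → F}
    (hd : ∀ i, IntegrableOn (D i) (S.P i)) (hi : ∀ k, IntegrableOn (g k) (A k))
    (hg : ∀ k i, ∀ v ∈ piece S (q k) (A k) i,
      g k v = |(jd S (q k) i v).det| • D i (co S i (q k v)))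
    (hcov : ∀ i, ∀ z ∈ S.P i, D i z ≠ 0 → ∃ k, ∃ γ : Γ, ∃ v ∈ A k, γ • q k v = S.σ i z) :
    ∑ k, ∫ v in A k, g k v = ∑ i, ∫ z in S.P i, D i z := by
  have h1 : ∀ k, ∫ v in A k, g k v = ∑ i, ∫ z in im S (q k) (A k) i, D i z := fun k =>
    (h k).int D (g k) (hi k) (hg k)
  simp_rw [h1]
  rw [Finset.sum_comm]
  refine Finset.sum_congr rfl fun i _ => ?_
  have hm : ∀ k, MeasurableSet (im S (q k) (A k) i) := fun k => (h k).meas_image i
  have hsub : ∀ k, im S (q k) (A k) i ⊆ S.P i := fun k z hz => hz.1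
  have hdis : Pairwise (Function.onFun Disjoint fun k => im S (q k) (A k) i) := by
    intro k l hkl
    rw [Function.onFun, Set.disjoint_left]
    rintro z ⟨hz, γ, v, hv, he⟩ ⟨_, δ, w, hw, he'⟩
    refine hdisj k l hkl v hv w hw (δ⁻¹ * γ) ?_
    rw [mul_smul, he, ← he', inv_smul_smul]
  rw [← integral_iUnion_fintype hm hdis (fun k => (hd i).mono_set (hsub k))]
  refine setIntegral_eq_of_subset_of_forall_diff_eq_zero (meas_P S i) (iUnion_subset hsub) ?_ |>.symm
  rintro z ⟨hz, hz'⟩
  by_contra hne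
  obtain ⟨k, γ, v, hv, he⟩ := hcov i z hz hne
  exact hz' (mem_iUnion.2 ⟨k, hz, γ, v, hv, he⟩)

end Vale.Agent.P281.H303.K
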