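import Vale.Agent.P281.H303.K.Change

/-!
# P281, T-K, block J (helper303): compatible sheets (after helper864's case d = 1)
-/

open Set Filter Metric MeasureTheory
open scoped Topology ContDiff ComplexConjugate ENNReal

set_option linter.unusedSectionVars false
set_option linter.deprecated false
set_option linter.unusedVariables false

noncomputable section

namespace Vale.Agent.P281.H303.K

open Vale.Agent.P281.H64 (Cm)
open Vale.Agent.P281.H64.TK

variable {d : ℕ}

theorem det_comp_id {L M : Cm d →L[ℝ] Cm d} (h : L.comp M = ContinuousLinearMap.id ℝ (Cm d)) :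
    L.det * M.det = 1 := by
  have := congrArg ContinuousLinearMap.det h
  unfold ContinuousLinearMap.det at this ⊢
  rw [ContinuousLinearMap.toLinearMap_comp, LinearMap.det_comp] at this
  rw [this]
  exact LinearMap.det_id

theorem det_comp_id' {L M : Cm d →L[ℂ] Cm d} (h : L.comp M = ContinuousLinearMap.id ℂ (Cm d)) :
    L.det * M.det = 1 := by
  have := congrArg ContinuousLinearMap.det h
  unfold ContinuousLinearMap.det at this ⊢
  rw [ContinuousLinearMap.toLinearMap_comp, LinearMap.det_comp] at this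
  rw [this]
  exact LinearMap.det_id

/-- local inverse of a smooth map -/
theorem inv_smooth {ψ : Cm d → Cm d} {z : Cm d} (h : ContDiffAt ℝ ∞ ψ z)
    (hd : 0 < (fderiv ℝ ψ z).det) : ∃ χ : Cm d → Cm d, ContDiffAt ℝ ∞ χ (ψ z) ∧ χ (ψ z) = z ∧
      0 < (fderiv ℝ χ (ψ z)).det ∧ ∀ᶠ u in 𝓝 (ψ z), ψ (χ u) = u := by
  have hn : (∞ : WithTop ℕ∞) ≠ 0 := by simp
  have hdiff : DifferentiableAt ℝ ψ z := h.differentiableAt hn
  let e : Cm d ≃L[ℝ] Cm d := (fderiv ℝ ψ z).toContinuousLinearEquivOfDetNeZero hd.ne'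
  have he : (e : Cm d →L[ℝ] Cm d) = fderiv ℝ ψ z :=
    ContinuousLinearMap.coe_toContinuousLinearEquivOfDetNeZero _ _
  have hf' : HasFDerivAt ψ (e : Cm d →L[ℝ] Cm d) z := by
    rw [he]
    exact hdiff.hasFDerivAt
  have h1 := h.to_localInverse hf' hn
  have h2 := h.localInverse_apply_image hf' hn
  have h3 : ∀ᶠ u in 𝓝 (ψ z), ψ (h.localInverse hf' hn u) = u :=
    (h.hasStrictFDerivAt' hf' hn).eventually_right_inverse
  refine ⟨h.localInverse hf' hn, h1, h2, ?_, h3⟩
  set χ := h.localInverse hf' hn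
  have h4 : HasFDerivAt (fun u => ψ (χ u)) ((fderiv ℝ ψ z).comp (fderiv ℝ χ (ψ z))) (ψ z) := by
    have h5 : HasFDerivAt ψ (fderiv ℝ ψ z) (χ (ψ z)) := by
      rw [h2]
      exact hdiff.hasFDerivAt
    exact h5.comp (ψ z) (h1.differentiableAt hn).hasFDerivAt
  have h5 : HasFDerivAt (fun u => ψ (χ u)) (ContinuousLinearMap.id ℝ (Cm d)) (ψ z) :=
    (hasFDerivAt_id (𝕜 := ℝ) (ψ z)).congr_of_eventuallyEq h3
  have h7 := det_comp_id (h4.unique h5)
  by_contra h8
  nlinarith

/-- local inverse of a holomorphic map -/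
theorem inv_hol {θ : Cm d → Cm d} {z : Cm d} (h : AnalyticAt ℂ θ z)
    (hd : (jac θ z).det ≠ 0) : ∃ χ : Cm d → Cm d, AnalyticAt ℂ χ (θ z) ∧ χ (θ z) = z ∧
      (jac χ (θ z)).det ≠ 0 ∧ ∀ᶠ u in 𝓝 (θ z), θ (χ u) = u := by
  have hn : (ω : WithTop ℕ∞) ≠ 0 := by simp
  have h0 : ContDiffAt ℂ ω θ z := h.contDiffAt
  have hd' : (fderiv ℂ θ z).det ≠ 0 := by
    unfold ContinuousLinearMap.det
    rwa [det_fderiv_jac]
  have hf' : HasFDerivAt θ
      (((fderiv ℂ θ z).toContinuousLinearEquivOfDetNeZero hd' : Cm d ≃L[ℂ] Cm d) :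
        Cm d →L[ℂ] Cm d) z := by
    rw [ContinuousLinearMap.coe_toContinuousLinearEquivOfDetNeZero]
    exact h.differentiableAt.hasFDerivAt
  have h1 := h0.to_localInverse hf' hn
  have h2 := h0.localInverse_apply_image hf' hn
  have h3 : ∀ᶠ u in 𝓝 (θ z), θ (h0.localInverse hf' hn u) = u :=
    (h0.hasStrictFDerivAt' hf' hn).eventually_right_inverse
  have h4 : AnalyticAt ℂ (h0.localInverse hf' hn) (θ z) := h1.analyticAt
  refine ⟨h0.localInverse hf' hn, h4, h2, ?_, h3⟩
  set χ := h0.localInverse hf' hn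
  have h5 : HasFDerivAt (fun u => θ (χ u)) ((fderiv ℂ θ z).comp (fderiv ℂ χ (θ z))) (θ z) := by
    have h6 : HasFDerivAt θ (fderiv ℂ θ z) (χ (θ z)) := by
      rw [h2]
      exact h.differentiableAt.hasFDerivAt
    exact h6.comp (θ z) h4.differentiableAt.hasFDerivAt
  have h6 : HasFDerivAt (fun u => θ (χ u)) (ContinuousLinearMap.id ℂ (Cm d)) (θ z) :=
    (hasFDerivAt_id (𝕜 := ℂ) (θ z)).congr_of_eventuallyEq h3
  have h7 := det_comp_id' (h5.unique h6)
  rw [← det_fderiv_jac]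
  intro h8
  unfold ContinuousLinearMap.det at h7
  rw [h8, mul_zero] at h7
  exact zero_ne_one h7

section
variable {E Γ : Type} [TopologicalSpace E] [Group Γ] [MulAction Γ E]

theorem compat_symm {S S' : Sheets d E Γ} (h : Compat S S') : Compat S' S := by
  intro j i w hw z hz γ he
  have he' : S.σ i z = γ⁻¹ • S'.σ j w := by rw [he, inv_smul_smul]
  obtain ⟨ψ, h1, h2, h3, h4⟩ := h i j z hz w hw γ⁻¹ he'
  obtain ⟨χ, g1, g2, g3, g4⟩ := inv_smooth h1 h3
  rw [h2] at g1 g2 g3 g4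
  refine ⟨χ, g1, g2, g3, ?_⟩
  have h5 : Tendsto χ (𝓝 w) (𝓝 z) := by
    have := g1.continuousAt.tendsto
    rwa [g2] at this
  filter_upwards [h5.eventually h4, g4] with u a1 a2
  rw [a1, smul_inv_smul, a2]

theorem holCompat_symm {S S' : Sheets d E Γ} (h : HolCompat S S') : HolCompat S' S := by
  intro j i w hw z hz γ he
  have he' : S.σ i z = γ⁻¹ • S'.σ j w := by rw [he, inv_smul_smul]
  obtain ⟨ψ, h1, h2, h3, h4⟩ := h i j z hz w hw γ⁻¹ he'
  obtain ⟨χ, g1, g2, g3, g4⟩ := inv_hol h1 h3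
  rw [h2] at g1 g2 g3 g4
  refine ⟨χ, g1, g2, g3, ?_⟩
  have h5 : Tendsto χ (𝓝 w) (𝓝 z) := by
    have := g1.continuousAt.tendsto
    rwa [g2] at this
  filter_upwards [h5.eventually h4, g4] with u a1 a2
  rw [a1, smul_inv_smul, a2]

theorem holCompat_compat {S S' : Sheets d E Γ} (h : HolCompat S S') : Compat S S' := by
  intro i j z hz w hw γ he
  obtain ⟨θ, h1, h2, h3, h4⟩ := h i j z hz w hw γ he
  refine ⟨θ, ?_, h2, ?_, h4⟩
  · exact (h1.contDiffAt.restrict_scalars ℝ).of_le le_top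
  · rw [det_fderiv_real h1.differentiableAt]
    exact pow_pos (norm_pos_iff.2 h3) 2

/-- the transition maps of one complex manifold have nonzero Jacobian determinant -/
theorem holCompat_refl (S : Sheets d E Γ) : HolCompat S S := by
  intro i j z hz w hw γ he
  obtain ⟨θ, h1, h2, h3⟩ := S.hol i j z hz w hw γ he
  have he' : S.σ j w = γ⁻¹ • S.σ i z := by rw [he, inv_smul_smul]
  obtain ⟨η, g1, g2, g3⟩ := S.hol j i w hw z hz γ⁻¹ he'
  refine ⟨θ, h1, h2, ?_, h3⟩
  have ht : Tendsto θ (𝓝 z) (𝓝 w) := by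
    have := h1.continuousAt.tendsto
    rwa [h2] at this
  have ht' : Tendsto η (𝓝 w) (𝓝 z) := by
    have := g1.continuousAt.tendsto
    rwa [g2] at this
  have h5 : ∀ᶠ u in 𝓝 z, η (θ u) = u := by
    filter_upwards [h3, ht.eventually g3, (ht'.comp ht).eventually (isOpen_ball.mem_nhds hz),
      isOpen_ball.mem_nhds hz] with u a1 a2 a3 a4
    refine (uniq (S := S) (i := i) (γ := 1) (δ := 1) a3 a4 ?_).2
    rw [one_smul, one_smul, a1, a2, smul_inv_smul]
    rfl
  have h6 : HasFDerivAt (fun u => η (θ u)) ((fderiv ℂ η w).comp (fderiv ℂ θ z)) z := by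
    have h7 : HasFDerivAt η (fderiv ℂ η w) (θ z) := by
      rw [h2]
      exact g1.differentiableAt.hasFDerivAt
    exact h7.comp z h1.differentiableAt.hasFDerivAt
  have h7 : HasFDerivAt (fun u => η (θ u)) (ContinuousLinearMap.id ℂ (Cm d)) z :=
    (hasFDerivAt_id z).congr_of_eventuallyEq h5
  have h9 := det_comp_id' (h6.unique h7)
  rw [← det_fderiv_jac]
  intro h8
  unfold ContinuousLinearMap.det at h9
  rw [h8, mul_zero] at h9
  exact zero_ne_one h9

theorem compat_refl (S : Sheets d E Γ) : Compat S S := holCompat_compat (holCompat_refl S)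

/-- holomorphic additive functions do not depend on the sheets -/
theorem add_compat {S S' : Sheets d E Γ} (h : HolCompat S S') {f : E → ℂ} {c : Γ → ℂ}
    (hf : Add S f c) : Add S' f c where
  add := hf.add
  hol := by
    intro j w hw
    obtain ⟨γ, i, z, hz, he⟩ := S.cover (S'.σ j w)
    have hz' : z ∈ ball (0 : Cm d) 3 := ball13 (by simpa using hz)
    obtain ⟨θ, h1, h2, h3, h4⟩ := holCompat_symm h j i w hw z hz' γ he.symm
    have h5 : DifferentiableAt ℂ (fun u => f (S.σ i (θ u)) + c γ) w := by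
      have h6 : DifferentiableAt ℂ (fun z => f (S.σ i z)) (θ w) := by
        rw [h2]
        exact (hf.hol i).differentiableAt (isOpen_ball.mem_nhds hz')
      exact (DifferentiableAt.comp w h6 h1.differentiableAt).add_const _
    refine (h5.congr_of_eventuallyEq ?_).differentiableWithinAt
    filter_upwards [h4] with u hu
    rw [hu, hf.add]

variable [ContinuousConstSMul Γ E]

theorem nice_compat {S S' : Sheets d E Γ} (h : Compat S S') (i : Fin S.N) :
    Nice S' (S.σ i) (ball 0 3) where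
  meas := isOpen_ball.measurableSet
  diff := by
    intro v hv j z hz γ he
    obtain ⟨ψ, h1, h2, h3, h4⟩ := h i j v hv z hz γ he
    exact ⟨ψ, h1.differentiableAt (by simp), h2, h3.le, h4⟩
  inj := (nice_self S i).inj

variable {F : Type} [NormedAddCommGroup F] [NormedSpace ℝ F]

/-- **Invariance of the integral** of a form of top degree. -/
theorem int_compat {S S' : Sheets d E Γ} (h : Compat S S') {D : Fin S.N → Cm d → F}
    {D' : Fin S'.N → Cm d → F} (hd : ∀ i, IntegrableOn (D i) (S.P i))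
    (hd' : ∀ i, IntegrableOn (D' i) (S'.P i))
    (hc : ∀ i j, ∀ z ∈ ball (0 : Cm d) 3, ∀ w ∈ ball (0 : Cm d) 3, ∀ (γ : Γ) (ψ : Cm d → Cm d),
      S.σ i z = γ • S'.σ j w → DifferentiableAt ℝ ψ z → ψ z = w → 0 ≤ (fderiv ℝ ψ z).det →
      (∀ᶠ u in 𝓝 z, S.σ i u = γ • S'.σ j (ψ u)) →
      D i z = (fderiv ℝ ψ z).det • D' j w) :
    ∑ i, ∫ z in S.P i, D i z = ∑ i, ∫ z in S'.P i, D' i z := by
  have hn : ∀ k, Nice S' (S.σ k) (S.P k) := fun k =>
    (nice_compat h k).mono (P_subset3 S k) (meas_P S k)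
  refine int_family (S := S') (q := S.σ) (A := S.P) hn ?_ hd' hd ?_ ?_
  · intro k l hkl v hv w hw γ he
    exact hkl (P_disj (e := S.σ l w) ⟨γ, v, hv, he⟩ ⟨1, w, hw, one_smul _ _⟩)
  · rintro k i v ⟨hv, γ, z, hz, he⟩
    have hv3 := P_subset3 S k hv
    have hz3 := P_subset3 S' i hz
    have h1 := (hn k).eventually hv i hz3 he.symm
    unfold jd
    rw [abs_of_nonneg h1.2.1, co_eq hz3 he]
    exact hc k i v hv3 z hz3 γ _ he.symm h1.1 (co_eq hz3 he) h1.2.1 (h1.2.2.mono fun u hu => hu.2)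
  · intro i z hz _
    obtain ⟨k, γ, v, hv, he⟩ := exists_P S (S'.σ i z)
    exact ⟨k, γ, v, hv, he⟩

end

end Vale.Agent.P281.H303.K
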