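import Vale.Agent.P281.H64.TK.Spec

/-!
# P281, T-K, block J (helper303): Jacobian determinants, Piola's identity, Stokes' theorem
-/

open Set Filter Metric MeasureTheory
open scoped Topology ContDiff

noncomputable section

namespace Vale.Agent.P281.H303.K

variable {ι : Type} [Fintype ι] [DecidableEq ι] {V : Type} [NormedAddCommGroup V]
  [NormedSpace ℝ V]

/-- the determinant as a continuous multilinear function of the rows -/
def detM (ι : Type) [Fintype ι] [DecidableEq ι] :
    ContinuousMultilinearMap ℝ (fun _ : ι => (ι → ℝ)) ℝ :=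
  { (Matrix.detRowAlternating (n := ι) (R := ℝ)).toMultilinearMap with
    cont := by
      have h : Continuous (fun M : Matrix ι ι ℝ => M.det) := continuous_id.matrix_det
      exact h }

theorem detM_apply (c : ι → ι → ℝ) : detM ι c = Matrix.det (Matrix.of c) := rfl

/-- the derivative of `a` in the direction `e k` -/
def cl (e : ι → V) (a : V → ι → ℝ) (x : V) (k : ι) : ι → ℝ := fderiv ℝ a x (e k)

/-- the Jacobian determinant of `a` for the vectors `e` -/
def jd' (e : ι → V) (a : V → ι → ℝ) (x : V) : ℝ := detM ι (cl e a x)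

/-- cofactor field -/
def cof (e : ι → V) (a : V → ι → ℝ) (v : ι → ℝ) (i : ι) (x : V) : ℝ :=
  detM ι (Function.update (cl e a x) i v)

theorem contDiffAt_cl {e : ι → V} {a : V → ι → ℝ} {x : V} (ha : ContDiffAt ℝ ∞ a x) (k : ι) :
    ContDiffAt ℝ ∞ (fun x => cl e a x k) x := by
  unfold cl
  exact (ha.fderiv_right (m := ∞) (by simp)).clm_apply contDiffAt_const

theorem contDiffAt_cof {e : ι → V} {a : V → ι → ℝ} {x : V} (ha : ContDiffAt ℝ ∞ a x)
    (v : ι → ℝ) (i : ι) : ContDiffAt ℝ ∞ (cof e a v i) x := by
  have h1 : ContDiffAt ℝ ∞ (fun x => Function.update (cl e a x) i v) x := by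
    refine contDiffAt_pi.2 fun k => ?_
    by_cases h : k = i
    · subst h
      simp only [Function.update_self]
      exact contDiffAt_const
    · simp only [Function.update_of_ne h]
      exact contDiffAt_cl ha k
  exact (detM ι).contDiff.contDiffAt.comp x h1

theorem contDiffAt_jd' {e : ι → V} {a : V → ι → ℝ} {x : V} (ha : ContDiffAt ℝ ∞ a x) :
    ContDiffAt ℝ ∞ (jd' e a) x :=
  (detM ι).contDiff.contDiffAt.comp x (contDiffAt_pi.2 fun k => contDiffAt_cl ha k)

theorem hasFDerivAt_cl {e : ι → V} {a : V → ι → ℝ} {x : V} (ha : ContDiffAt ℝ ∞ a x) (k : ι) :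
    HasFDerivAt (fun y => cl e a y k) ((fderiv ℝ (fderiv ℝ a) x).flip (e k)) x := by
  have h1 : HasFDerivAt (fderiv ℝ a) (fderiv ℝ (fderiv ℝ a) x) x :=
    ((ha.fderiv_right (m := ∞) (by simp)).differentiableAt (by simp)).hasFDerivAt
  have h2 := h1.clm_apply (hasFDerivAt_const (e k) x)
  refine h2.congr_fderiv ?_
  ext w j
  simp

theorem fderiv_cof {e : ι → V} {a : V → ι → ℝ} {x : V} (ha : ContDiffAt ℝ ∞ a x) (v : ι → ℝ)
    (i : ι) (w : V) :
    fderiv ℝ (cof e a v i) x w = ∑ k, if k = i then 0 else
      detM ι (Function.update (Function.update (cl e a x) i v) k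
        (fderiv ℝ (fderiv ℝ a) x w (e k))) := by
  classical
  have h1 : HasFDerivAt (fun y => Function.update (cl e a y) i v)
      (ContinuousLinearMap.pi fun k => if k = i then 0 else
        (fderiv ℝ (fderiv ℝ a) x).flip (e k)) x := by
    rw [hasFDerivAt_pi]
    intro k
    by_cases h : k = i
    · subst h
      simp only [Function.update_self, if_true]
      exact hasFDerivAt_const v x
    · simp only [Function.update_of_ne h, if_neg h]
      exact hasFDerivAt_cl ha k
  have h2 : HasFDerivAt (cof e a v i) _ x :=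
    ((detM ι).hasFDerivAt (x := Function.update (cl e a x) i v)).comp x h1
  rw [h2.fderiv]
  rw [ContinuousLinearMap.comp_apply, ContinuousMultilinearMap.linearDeriv_apply]
  refine Finset.sum_congr rfl fun k _ => ?_
  by_cases h : k = i
  · subst h
    simp only [ContinuousLinearMap.coe_pi', if_true]
    exact (detM ι).map_coord_zero k (by simp)
  · simp [h]

/-- **Piola identity** -/
theorem piola {e : ι → V} {a : V → ι → ℝ} {x : V} (ha : ContDiffAt ℝ ∞ a x) (v : ι → ℝ) :
    ∑ i, fderiv ℝ (cof e a v i) x (e i) = 0 := by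
  classical
  have hsym : ∀ i k, fderiv ℝ (fderiv ℝ a) x (e i) (e k) =
      fderiv ℝ (fderiv ℝ a) x (e k) (e i) := by
    intro i k
    have h : IsSymmSndFDerivAt ℝ a x := by
      apply ContDiffAt.isSymmSndFDerivAt (n := ∞) ha
      simp only [minSmoothness_of_isRCLikeNormedField]
      exact WithTop.coe_le_coe.2 le_top
    exact h _ _
  set T : ι → ι → ℝ := fun i k => if k = i then 0 else
      detM ι (Function.update (Function.update (cl e a x) i v) k
        (fderiv ℝ (fderiv ℝ a) x (e i) (e k))) with hT
  have h1 : ∑ i, fderiv ℝ (cof e a v i) x (e i) = ∑ i, ∑ k, T i k := by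
    refine Finset.sum_congr rfl fun i _ => ?_
    rw [fderiv_cof ha]
  have h2 : ∀ i k, T i k = - T k i := by
    intro i k
    by_cases h : k = i
    · subst h; simp [hT]
    · have h' : i ≠ k := fun e => h e.symm
      simp only [hT, if_neg h, if_neg h']
      rw [hsym i k]
      set m : ι → ι → ℝ := Function.update (Function.update (cl e a x) k v) i
        (fderiv ℝ (fderiv ℝ a) x (e k) (e i)) with hm
      have e : Function.update (Function.update (cl e a x) i v) k
          (fderiv ℝ (fderiv ℝ a) x (e k) (e i)) = m ∘ Equiv.swap i k := by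
        funext l
        simp only [Function.comp_apply, hm]
        by_cases h1 : l = k
        · subst h1
          rw [Equiv.swap_apply_right, Function.update_self, Function.update_self]
        · by_cases h2 : l = i
          · subst h2
            rw [Equiv.swap_apply_left, Function.update_of_ne h', Function.update_self,
              Function.update_of_ne h, Function.update_self]
          · rw [Equiv.swap_apply_of_ne_of_ne h2 h1, Function.update_of_ne h1,
              Function.update_of_ne h2, Function.update_of_ne h2, Function.update_of_ne h1]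
      rw [e]
      exact (Matrix.detRowAlternating (n := ι) (R := ℝ)).map_swap m h'
  rw [h1]
  have h3 : ∑ i, ∑ k, T i k = - ∑ i, ∑ k, T i k := by
    calc ∑ i, ∑ k, T i k = ∑ i, ∑ k, - T k i :=
          Finset.sum_congr rfl fun i _ => Finset.sum_congr rfl fun k _ => h2 i k
      _ = - ∑ i, ∑ k, T k i := by simp only [Finset.sum_neg_distrib]
      _ = - ∑ i, ∑ k, T i k := by rw [Finset.sum_comm]
  linarith

theorem fderiv_apply_coord {a : V → ι → ℝ} {x : V} (ha : DifferentiableAt ℝ a x) (k : ι) (v : V) :
    fderiv ℝ (fun y => a y k) x v = fderiv ℝ a x v k := by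
  have h1 : HasFDerivAt (fun y => a y k)
      ((ContinuousLinearMap.proj (R := ℝ) (φ := fun _ : ι => ℝ) k).comp (fderiv ℝ a x)) x :=
    hasFDerivAt_pi'.1 ha.hasFDerivAt k
  rw [h1.fderiv]
  rfl

/-- Expansion of the Jacobian determinant: it is a divergence. -/
theorem jd'_eq_div {e : ι → V} {a : V → ι → ℝ} {x : V} (ha : ContDiffAt ℝ ∞ a x) (k : ι) :
    ∑ i, fderiv ℝ (fun y => a y k * cof e a (Pi.single k 1) i y) x (e i) = jd' e a x := by
  have hd : DifferentiableAt ℝ a x := ha.differentiableAt (by simp)
  have hdk : DifferentiableAt ℝ (fun y => a y k) x := differentiableAt_pi.1 hd k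
  have h1 : ∀ i, fderiv ℝ (fun y => a y k * cof e a (Pi.single k 1) i y) x (e i)
      = a x k * fderiv ℝ (cof e a (Pi.single k 1) i) x (e i)
        + cof e a (Pi.single k 1) i x * cl e a x i k := by
    intro i
    have hC : DifferentiableAt ℝ (cof e a (Pi.single k 1) i) x :=
      (contDiffAt_cof ha _ i).differentiableAt (by simp)
    rw [fderiv_fun_mul hdk hC]
    simp only [add_apply, smul_apply, smul_eq_mul]
    rw [fderiv_apply_coord hd]
    rfl
  simp only [h1, Finset.sum_add_distrib, ← Finset.mul_sum]
  rw [piola ha, mul_zero, zero_add]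
  have h2 := Matrix.det_eq_sum_mul_adjugate_col (Matrix.of (cl e a x)) k
  rw [jd', detM_apply, h2]
  refine Finset.sum_congr rfl fun i _ => ?_
  rw [Matrix.adjugate_apply, mul_comm]
  rfl

variable [MeasurableSpace V] [BorelSpace V] [FiniteDimensional ℝ V] {μ : Measure V}
  [μ.IsAddHaarMeasure]

/-- integral of a derivative of a function with compact support -/
theorem integral_fderiv_zero {u : V → ℝ} (hu : ContDiff ℝ ∞ u)
    (hc : HasCompactSupport u) (w : V) : ∫ x, fderiv ℝ u x w ∂μ = 0 := by
  have h1 : Continuous (fun x => fderiv ℝ u x w) :=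
    ((hu.continuous_fderiv (by simp)).clm_apply continuous_const)
  have h2 : HasCompactSupport (fun x => fderiv ℝ u x w) :=
    (hc.fderiv (𝕜 := ℝ)).mono' (fun x hx => by
      apply subset_tsupport
      intro h0
      apply hx
      simp [h0])
  have key := integral_bilinear_hasLineDerivAt_right_eq_neg_left_of_integrable
    (μ := μ) (f := fun _ => (1 : ℝ)) (f' := fun _ => (0 : ℝ))
    (g := u) (g' := fun x => fderiv ℝ u x w) (v := w) (B := ContinuousLinearMap.mul ℝ ℝ)
    (by simp) (by simpa using h1.integrable_of_hasCompactSupport h2)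
    (by simpa using hu.continuous.integrable_of_hasCompactSupport hc)
    (fun x _ => by simpa using (hasFDerivAt_const (1 : ℝ) x).hasLineDerivAt w)
    (fun x _ => (hu.differentiable (by simp) x).hasFDerivAt.hasLineDerivAt w)
  simpa using key

/-- **Stokes' theorem**: if one of the functions vanishes off a compact subset of the open set `U`,
the integral of the Jacobian determinant is zero. -/
theorem stokes_open {e : ι → V} {a : V → ι → ℝ} {U K : Set V} (hU : IsOpen U) (hK : IsCompact K)
    (hKU : K ⊆ U) (ha : ContDiffOn ℝ ∞ a U) (k : ι) (h0 : ∀ x ∈ U, x ∉ K → a x k = 0) :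
    ∫ x in U, jd' e a x ∂μ = 0 := by
  classical
  have hat : ∀ x ∈ U, ContDiffAt ℝ ∞ a x := fun x hx => ha.contDiffAt (hU.mem_nhds hx)
  set G : ι → V → ℝ := fun i => K.indicator fun y => a y k * cof e a (Pi.single k 1) i y with hG
  have hGU : ∀ i, ∀ x ∈ U, G i =ᶠ[𝓝 x] fun y => a y k * cof e a (Pi.single k 1) i y := by
    intro i x hx
    filter_upwards [hU.mem_nhds hx] with y hy
    by_cases hyK : y ∈ K
    · simp only [hG, indicator_of_mem hyK]
    · simp only [hG, indicator_of_notMem hyK, h0 y hy hyK, zero_mul]
  have hG0 : ∀ i, ∀ x ∉ K, G i =ᶠ[𝓝 x] fun _ => 0 := by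
    intro i x hx
    filter_upwards [hK.isClosed.isOpen_compl.mem_nhds hx] with y hy
    exact indicator_of_notMem hy _
  have hsm : ∀ i, ContDiff ℝ ∞ (G i) := by
    intro i
    rw [contDiff_iff_contDiffAt]
    intro x
    by_cases hx : x ∈ K
    · have hxU := hKU hx
      exact ((contDiffAt_pi.1 (hat x hxU) k).mul (contDiffAt_cof (hat x hxU) _ i)).congr_of_eventuallyEq
        (hGU i x hxU)
    · exact contDiffAt_const.congr_of_eventuallyEq (hG0 i x hx)
  have hcs : ∀ i, HasCompactSupport (G i) := fun i =>
    HasCompactSupport.of_support_subset_isCompact hK support_indicator_subset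
  have h1 : ∀ x, ∑ i, fderiv ℝ (G i) x (e i) = U.indicator (jd' e a) x := by
    intro x
    by_cases hx : x ∈ U
    · rw [indicator_of_mem hx, ← jd'_eq_div (hat x hx) k]
      exact Finset.sum_congr rfl fun i _ => by rw [(hGU i x hx).fderiv_eq]
    · rw [indicator_of_notMem hx]
      refine Finset.sum_eq_zero fun i _ => ?_
      rw [(hG0 i x fun h => hx (hKU h)).fderiv_eq]
      simp
  rw [← integral_indicator hU.measurableSet]
  simp_rw [← h1]
  rw [integral_finset_sum]
  · exact Finset.sum_eq_zero fun i _ => integral_fderiv_zero (hsm i) (hcs i) _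
  · intro i _
    have h2 : Continuous (fun x => fderiv ℝ (G i) x (e i)) :=
      (((hsm i).continuous_fderiv (by simp)).clm_apply continuous_const)
    refine h2.integrable_of_hasCompactSupport (((hcs i).fderiv (𝕜 := ℝ)).mono' fun x hx => ?_)
    apply subset_tsupport
    intro h0
    apply hx
    simp [h0]

end Vale.Agent.P281.H303.K
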