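import Vale.Agent.P281.H303.K.Compat
import Vale.Agent.P281.H303.K.Pio

/-!
# P281, T-K, block J (helper303): smooth functions, partition of unity, smooth additive functions
(after helper864's case d = 1)
-/

open Set Filter Metric MeasureTheory
open scoped Topology ContDiff ComplexConjugate ENNReal

set_option linter.unusedSectionVars false
set_option linter.deprecated false
set_option linter.unusedVariables false

noncomputable section

namespace Vale.Agent.P281.H303.K

open Vale.Agent.P281.H64 (Cm)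
open Vale.Agent.P281.H64.TK

variable {d : ℕ} {E Γ : Type} [TopologicalSpace E] [Group Γ] [MulAction Γ E]
  {F : Type} [NormedAddCommGroup F] [NormedSpace ℝ F]

/-- `u : E → F` is smooth. -/
def Smo (S : Sheets d E Γ) (u : E → F) : Prop :=
  ∀ (i : Fin S.N) (γ : Γ), ContDiffOn ℝ ∞ (fun z => u (γ • S.σ i z)) (ball 0 3)

theorem smo_iff_smooth {S : Sheets d E Γ} {u : E → ℂ} : Smo S u ↔ S.Smooth u := Iff.rfl

theorem smo_iff {S : Sheets d E Γ} {u : E → F} : Smo S u ↔ ∀ (i : Fin S.N) (γ : Γ),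
    ∀ z ∈ ball (0 : Cm d) 3, ContDiffAt ℝ ∞ (fun z => u (γ • S.σ i z)) z := by
  constructor
  · intro h i γ z hz
    exact (h i γ).contDiffAt (isOpen_ball.mem_nhds hz)
  · intro h i γ z hz
    exact (h i γ z hz).contDiffWithinAt

theorem Smo.self {S : Sheets d E Γ} {u : E → F} (h : Smo S u) (i : Fin S.N) :
    ContDiffOn ℝ ∞ (fun z => u (S.σ i z)) (ball 0 3) := by
  have := h i 1
  simpa using this

theorem Smo.selfAt {S : Sheets d E Γ} {u : E → F} (h : Smo S u) {i : Fin S.N} {z : Cm d}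
    (hz : z ∈ ball (0 : Cm d) 3) : ContDiffAt ℝ ∞ (fun z => u (S.σ i z)) z :=
  (h.self i).contDiffAt (isOpen_ball.mem_nhds hz)

theorem Smo.diffAt {S : Sheets d E Γ} {u : E → F} (h : Smo S u) {i : Fin S.N} {z : Cm d}
    (hz : z ∈ ball (0 : Cm d) 3) : DifferentiableAt ℝ (fun z => u (S.σ i z)) z :=
  (h.selfAt hz).differentiableAt (by simp)

theorem Smo.smul {S : Sheets d E Γ} {u : E → ℝ} {v : E → F} (h : Smo S u) (h' : Smo S v) :
    Smo S fun e => u e • v e := fun i γ => (h i γ).smul (h' i γ)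

theorem Smo.mul {S : Sheets d E Γ} {u v : E → ℝ} (h : Smo S u) (h' : Smo S v) :
    Smo S fun e => u e * v e := fun i γ => (h i γ).mul (h' i γ)

theorem Smo.add {S : Sheets d E Γ} {u v : E → F} (h : Smo S u) (h' : Smo S v) :
    Smo S fun e => u e + v e := fun i γ => (h i γ).add (h' i γ)

theorem Smo.sub {S : Sheets d E Γ} {u v : E → F} (h : Smo S u) (h' : Smo S v) :
    Smo S fun e => u e - v e := fun i γ => (h i γ).sub (h' i γ)

theorem Smo.const {S : Sheets d E Γ} (c : F) : Smo S fun _ => c :=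
  fun i γ => contDiffOn_const

theorem Smo.sum {S : Sheets d E Γ} {ι : Type} (s : Finset ι) {u : ι → E → F}
    (h : ∀ i ∈ s, Smo S (u i)) : Smo S fun e => ∑ i ∈ s, u i e :=
  fun j γ => ContDiffOn.sum fun i hi => h i hi j γ

theorem Smo.inv {S : Sheets d E Γ} {v : E → ℝ} (h' : Smo S v)
    (h0 : ∀ e, v e ≠ 0) : Smo S fun e => (v e)⁻¹ :=
  fun i γ => (h' i γ).inv fun z _ => h0 _

theorem Smo.compat {S S' : Sheets d E Γ} (hS : Compat S S') {u : E → F} (hu : Smo S' u) :
    Smo S u := by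
  rw [smo_iff]
  intro i γ z hz
  obtain ⟨δ, j, w, hw, he⟩ := S'.cover (S.σ i z)
  have hw3 : w ∈ ball (0 : Cm d) 3 := ball13 (by simpa using hw)
  obtain ⟨ψ, h1, h2, h3, h4⟩ := hS i j z hz w hw3 δ he.symm
  have h5 : ContDiffAt ℝ ∞ (fun w => u ((γ * δ) • S'.σ j w)) (ψ z) := by
    rw [h2]
    exact smo_iff.1 hu j _ w hw3
  refine (h5.comp z h1).congr_of_eventuallyEq ?_
  filter_upwards [h4] with x hx
  rw [hx]
  simp only [Function.comp, mul_smul]

variable [ContinuousConstSMul Γ E]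

theorem continuousAt_sheet {S : Sheets d E Γ} {i : Fin S.N} (γ : Γ) {z : Cm d}
    (hz : z ∈ ball (0 : Cm d) 3) : ContinuousAt (fun z => γ • S.σ i z) z :=
  ContinuousAt.const_smul (S.map_nhds i z hz).le γ

/-- Smooth functions supported in one sheet. -/
theorem smo_of_sheet (S : Sheets d E Γ) (i : Fin S.N) {f : E → F}
    (h0 : ∀ e, e ∉ V S i (closedBall 0 2) → f e = 0)
    (h1 : ∀ γ : Γ, ContDiffOn ℝ ∞ (fun z => f (γ • S.σ i z)) (ball 0 3)) : Smo S f := by
  rw [smo_iff]
  intro j δ z hz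
  by_cases hV : δ • S.σ j z ∈ V S i (ball 0 3)
  · obtain ⟨γ, w, hw, he⟩ := hV
    have he' : S.σ j z = (δ⁻¹ * γ) • S.σ i w := by rw [mul_smul, he, inv_smul_smul]
    obtain ⟨θ, a1, a2, a3⟩ := S.hol j i z hz w hw _ he'
    have h2 : ContDiffAt ℝ ∞ (fun u => f (γ • S.σ i (θ u))) z := by
      have h3 : ContDiffAt ℝ ∞ (fun w => f (γ • S.σ i w)) (θ z) := by
        rw [a2]
        exact (h1 γ).contDiffAt (isOpen_ball.mem_nhds hw)
      have h4 : ContDiffAt ℝ ∞ θ z := (a1.contDiffAt.restrict_scalars ℝ).of_le le_top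
      exact h3.comp z h4
    refine h2.congr_of_eventuallyEq ?_
    filter_upwards [a3] with u hu
    rw [hu, mul_smul, smul_inv_smul]
  · have h2 : δ • S.σ j z ∈ (V S i (closedBall 0 2))ᶜ := fun h =>
      hV (V_mono (closedBall_subset_ball (by norm_num)) h)
    refine (contDiffAt_const (c := (0 : F))).congr_of_eventuallyEq ?_
    filter_upwards [(continuousAt_sheet δ hz).eventually
      ((isClosed_V (S := S) (i := i) (by norm_num : (2 : ℝ) < 3)).isOpen_compl.mem_nhds h2)]
      with u hu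
    exact h0 _ hu

/-- a bump function -/
def bump (d : ℕ) : ContDiffBump (0 : Cm d) := ⟨1, 2, one_pos, one_lt_two⟩

open Classical in
/-- the bump function in the sheet `i` -/
def rr (S : Sheets d E Γ) (i : Fin S.N) (e : E) : ℝ :=
  if e ∈ V S i (ball 0 3) then bump d (co S i e) else 0

theorem rr_smul (S : Sheets d E Γ) (i : Fin S.N) (γ : Γ) (e : E) :
    rr S i (γ • e) = rr S i e := by
  unfold rr
  by_cases h : e ∈ V S i (ball 0 3)
  · rw [if_pos h, if_pos ((V_smul γ).2 h), co_smul γ h]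
  · rw [if_neg h, if_neg (fun h' => h ((V_smul γ).1 h'))]

theorem rr_sheet (S : Sheets d E Γ) (i : Fin S.N) (γ : Γ) {z : Cm d}
    (hz : z ∈ ball (0 : Cm d) 3) : rr S i (γ • S.σ i z) = bump d z := by
  unfold rr
  rw [if_pos ⟨γ, z, hz, rfl⟩, co_eq hz rfl]

theorem rr_zero (S : Sheets d E Γ) (i : Fin S.N) {e : E} (h : e ∉ V S i (closedBall 0 2)) :
    rr S i e = 0 := by
  unfold rr
  split_ifs with h1
  · apply (bump d).zero_of_le_dist
    have h2 := ga_smul_co h1
    have : co S i e ∉ closedBall (0 : Cm d) 2 := fun h3 => h ⟨_, _, h3, h2.2⟩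
    rw [mem_closedBall, not_le] at this
    exact this.le
  · rfl

theorem rr_nonneg (S : Sheets d E Γ) (i : Fin S.N) (e : E) : 0 ≤ rr S i e := by
  unfold rr
  split_ifs with h1
  · exact (bump d).nonneg
  · rfl

theorem rr_smooth (S : Sheets d E Γ) (i : Fin S.N) : Smo S (rr S i) := by
  refine smo_of_sheet S i (fun e he => rr_zero S i he) fun γ => ?_
  refine (bump d).contDiff.contDiffOn.congr fun z hz => ?_
  simp only [rr_sheet S i γ hz]

/-- the sum of the bump functions -/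
def R (S : Sheets d E Γ) (e : E) : ℝ := ∑ i, rr S i e

theorem R_pos (S : Sheets d E Γ) (e : E) : 0 < R S e := by
  obtain ⟨γ, i, z, hz, he⟩ := S.cover e
  have h1 : rr S i e = 1 := by
    rw [← he, rr_sheet S i γ (ball13 (by simpa using hz))]
    apply (bump d).one_of_mem_closedBall
    rw [mem_closedBall_zero_iff]
    exact hz.le
  have h2 : rr S i e ≤ R S e :=
    Finset.single_le_sum (fun j _ => rr_nonneg S j e) (Finset.mem_univ i)
  linarith

theorem R_smul (S : Sheets d E Γ) (γ : Γ) (e : E) : R S (γ • e) = R S e := by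
  unfold R
  simp only [rr_smul]

/-- the partition of unity -/
def chi (S : Sheets d E Γ) (i : Fin S.N) (e : E) : ℝ := rr S i e * (R S e)⁻¹

theorem chi_smooth (S : Sheets d E Γ) (i : Fin S.N) : Smo S (chi S i) :=
  (rr_smooth S i).mul (Smo.inv (Smo.sum _ fun j _ => rr_smooth S j) fun e => (R_pos S e).ne')

theorem chi_smul (S : Sheets d E Γ) (i : Fin S.N) (γ : Γ) (e : E) :
    chi S i (γ • e) = chi S i e := by
  unfold chi
  rw [rr_smul, R_smul]

theorem chi_zero (S : Sheets d E Γ) (i : Fin S.N) {e : E} (h : e ∉ V S i (closedBall 0 2)) :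
    chi S i e = 0 := by
  unfold chi
  rw [rr_zero S i h, zero_mul]

theorem chi_nonneg (S : Sheets d E Γ) (i : Fin S.N) (e : E) : 0 ≤ chi S i e :=
  mul_nonneg (rr_nonneg S i e) (inv_nonneg.2 (R_pos S e).le)

theorem chi_sum (S : Sheets d E Γ) (e : E) : ∑ i, chi S i e = 1 := by
  unfold chi
  rw [← Finset.sum_mul]
  exact mul_inv_cancel₀ (R_pos S e).ne'

/-- the smooth additive function with periods `φ` -/
def uu (S : Sheets d E Γ) (φ : Γ → ℝ) (e : E) : ℝ := ∑ i, chi S i e * φ (ga S i e)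

theorem uu_smooth (S : Sheets d E Γ) (φ : Γ → ℝ) : Smo S (uu S φ) := by
  refine Smo.sum _ fun i _ => ?_
  refine smo_of_sheet S i (fun e he => by rw [chi_zero S i he, zero_mul]) fun γ => ?_
  refine ((chi_smooth S i i γ).mul (contDiffOn_const (c := φ γ))).congr fun z hz => ?_
  rw [ga_eq hz rfl]

theorem uu_add (S : Sheets d E Γ) {φ : Γ → ℝ} (hφ : ∀ x y, φ (x * y) = φ x + φ y) (γ : Γ)
    (e : E) : uu S φ (γ • e) = uu S φ e + φ γ := by
  unfold uu
  have h1 : ∀ i, chi S i (γ • e) * φ (ga S i (γ • e)) =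
      chi S i e * φ (ga S i e) + chi S i e * φ γ := by
    intro i
    rw [chi_smul]
    by_cases h : e ∈ V S i (ball 0 3)
    · rw [ga_smul γ h, hφ]
      ring
    · have : chi S i e = 0 := chi_zero S i fun h' =>
        h (V_mono (closedBall_subset_ball (by norm_num)) h')
      rw [this]
      ring
  simp only [h1, Finset.sum_add_distrib, ← Finset.sum_mul, chi_sum, one_mul]

/-! ### Smooth additive real functions -/

theorem SAdd.smo {S : Sheets d E Γ} {u : E → ℝ} {a : Γ → ℝ} (h : SAdd S u a) : Smo S u := by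
  intro i γ
  refine ((h.smooth i).add (contDiffOn_const (c := a γ))).congr fun z _ => ?_
  exact h.add γ _

theorem sadd_of {S : Sheets d E Γ} {u : E → ℝ} {a : Γ → ℝ} (h : Smo S u)
    (h' : ∀ (γ : Γ) (e : E), u (γ • e) = u e + a γ) : SAdd S u a := ⟨h.self, h'⟩

theorem uu_sadd (S : Sheets d E Γ) {φ : Γ → ℝ} (hφ : ∀ x y, φ (x * y) = φ x + φ y) :
    SAdd S (uu S φ) φ := sadd_of (uu_smooth S φ) (uu_add S hφ)

theorem SAdd.compat {S S' : Sheets d E Γ} (hS : Compat S S') {u : E → ℝ} {a : Γ → ℝ}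
    (h : SAdd S' u a) : SAdd S u a := sadd_of (Smo.compat hS (SAdd.smo h)) h.add

theorem SAdd.hom {S : Sheets d E Γ} {u : E → ℝ} {a : Γ → ℝ} (H : SAdd S u a) [Nonempty E]
    (x y : Γ) : a (x * y) = a x + a y := by
  obtain ⟨e⟩ := ‹Nonempty E›
  have h1 := H.add (x * y) e
  rw [mul_smul, H.add, H.add] at h1
  linarith

end Vale.Agent.P281.H303.K
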